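import Crest.Agent.X212.Sol49.Disc
import Crest.Agent.R096.P2f_241
import Crest.Agent.R105.Iod1_690

/-!
Row 212, layer T, package SOLID (helper49), part 4: recognition of the solid torus.
-/

set_option autoImplicit false
set_option linter.style.longLine false

open Set Metric Filter Topology

namespace Crest.Agent.X212.Sol49

open Crest.Agent.R096.Ce_537 Crest.Agent.X212.Prd34 Crest.Agent.R096.Bd_416

theorem alex : Alex := R096.Ar_241.p2_fin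

variable {Δ dΔ : Set P} {b : P × ℝ → V}

theorem apart {T B S B' S' : Set V} (hB : IsBall 3 B S) (hB' : IsBall 3 B' S') (hO' : IsOpen (B' \ S'))
    (hd : Disjoint (B \ S) S') (hT' : Disjoint (B' \ S') T) {x : V} (hx : x ∈ B) (hxT : x ∈ T)
    (hxS : x ∉ S') : B ∩ B' ⊆ S := by
  have hfr : frontier B' ⊆ S' := fun x hx => by
    by_contra hn
    exact hx.2 (interior_maximal sdiff_subset hO' ⟨hB'.isClosed.closure_subset hx.1, hn⟩)
  rcases R096.Ar_241.dichotomy hB.isPreconnected_diff hd hfr with h | h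
  · exfalso
    have h1 : B ⊆ B' := by
      rw [← hB.closure_diff]
      exact closure_minimal (h.trans interior_subset) hB'.isClosed
    exact disjoint_left.1 hT' ⟨h1 hx, hxS⟩ hxT
  · intro y hy
    by_contra hn
    exact disjoint_left.1 h ⟨hy.1, hn⟩ (subset_closure hy.2)

/-- one period -/
theorem period (h : Tor Δ dΔ b) {W : Set V} (hW : IsCompact W) (hM : Mf W (b '' (dΔ ×ˢ univ)))
    {d d' : P → V} (hd : Mer Δ dΔ b W 0 d) (hd' : Mer Δ dΔ b W (1 / 2) d')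
    (hdd : ∀ y ∈ Δ, ∀ y' ∈ Δ, d y ≠ d' y') :
    ∃ g : P × ℝ → V, PLOn g (Δ ×ˢ Icc 0 1) ∧ InjOn g (Δ ×ˢ Ico 0 1) ∧ MapsTo g (Δ ×ˢ Icc 0 1) W ∧
      (∀ y ∈ Δ, g (y, 1) = g (y, 0)) ∧ EqOn g b (dΔ ×ˢ Icc 0 1) := by
  classical
  have hd1 : Mer Δ dΔ b W 1 d := ⟨hd.pl, hd.inj, hd.sub, fun y hy => by
    rw [hd.bd y hy, ← h.per hy 0 1]; norm_num, hd.int⟩
  obtain ⟨B, S, e, a1, a2, a3, a4, a5, a6, a7, a8⟩ :=
    cyl alex h hW hM (s := 0) (t := 1 / 2) (by norm_num) (by norm_num) hd hd' hdd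
  obtain ⟨B', S', e', b1, b2, b3, b4, b5, b6, b7, b8⟩ :=
    cyl alex h hW hM (s := 1 / 2) (t := 1) (by norm_num) (by norm_num) hd' hd1
      fun y hy y' hy' e => hdd y' hy' y hy e.symm
  have hΔ := h.ball.subset
  have sT : ∀ s t : ℝ, b '' (dΔ ×ˢ Icc s t) ⊆ b '' (dΔ ×ˢ univ) := fun s t =>
    image_mono (prod_mono Subset.rfl (subset_univ _))
  obtain ⟨y0, hy0⟩ : dΔ.Nonempty := by
    obtain ⟨a, rfl⟩ := h.ball
    exact (NormedSpace.sphere_nonempty.2 zero_le_one).image _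
  have off : ∀ {u : ℝ} {c : P → V}, Mer Δ dΔ b W u c → ∀ r : ℝ, b (y0, r) ∈ c '' Δ →
      ∃ m : ℤ, r - u = m := by
    rintro u c hc r ⟨y, hy, ey⟩
    have h1 := hc.int y hy ⟨(y0, r), ⟨hy0, trivial⟩, ey.symm⟩
    rw [hc.bd y h1] at ey
    exact (h.eq hy0 h1 ey.symm).2
  have nint : ∀ (r : ℝ) (m : ℤ), r = m → -1 < r → r < 1 → r = 0 := fun r m e h1 h2 => by
    have : m = 0 := by
      rw [e] at h1 h2
      have h3 : -1 < m := by exact_mod_cast h1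
      have h4 : m < 1 := by exact_mod_cast h2
      omega
    rw [e, this, Int.cast_zero]
  have i1 : B ∩ B' ⊆ S := by
    refine apart (x := b (y0, 1 / 4)) a3 b3 b5 (disjoint_left.2 fun x hx hx' => ?_) b6 ?_
      ⟨_, ⟨hy0, trivial⟩, rfl⟩ fun hx => ?_
    · rcases b8 hx' with h1 | h1
      exacts [hx.2 (a7 h1.symm), disjoint_left.1 a6 hx (sT _ _ h1)]
    · have h1 : ((y0, 1 / 4) : P × ℝ) ∈ dΔ ×ˢ Icc (0 : ℝ) (1 / 2) := ⟨hy0, by norm_num, by norm_num⟩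
      rw [← a2 h1]; exact e.mf ⟨hΔ hy0, h1.2⟩
    · rcases b8 hx with (h1 | h1) | ⟨⟨y, r⟩, hp, h1⟩
      · obtain ⟨m, hm⟩ := off hd' _ h1
        linarith [nint _ m hm (by norm_num) (by norm_num)]
      · obtain ⟨m, hm⟩ := off hd _ h1
        linarith [nint _ m hm (by norm_num) (by norm_num)]
      · obtain ⟨-, m, hm⟩ := h.eq hp.1 hy0 h1
        linarith [nint _ m hm (by linarith [hp.2.1]) (by linarith [hp.2.2]), hp.2.1]
  have i2 : B' ∩ B ⊆ S' := by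
    refine apart (x := b (y0, 3 / 4)) b3 a3 a5 (disjoint_left.2 fun x hx hx' => ?_) a6 ?_
      ⟨_, ⟨hy0, trivial⟩, rfl⟩ fun hx => ?_
    · rcases a8 hx' with h1 | h1
      exacts [hx.2 (b7 h1.symm), disjoint_left.1 b6 hx (sT _ _ h1)]
    · have h1 : ((y0, 3 / 4) : P × ℝ) ∈ dΔ ×ˢ Icc (1 / 2 : ℝ) 1 := ⟨hy0, by norm_num, by norm_num⟩
      rw [← b2 h1]; exact e'.mf ⟨hΔ hy0, h1.2⟩
    · rcases a8 hx with (h1 | h1) | ⟨⟨y, r⟩, hp, h1⟩
      · obtain ⟨m, hm⟩ := off hd _ h1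
        linarith [nint _ m hm (by norm_num) (by norm_num)]
      · obtain ⟨m, hm⟩ := off hd' _ h1
        linarith [nint _ m hm (by norm_num) (by norm_num)]
      · obtain ⟨-, m, hm⟩ := h.eq hp.1 hy0 h1
        linarith [nint _ m hm (by linarith [hp.2.1]) (by linarith [hp.2.2]), hp.2.2]
  have i3 : B ∩ B' ⊆ d '' Δ ∪ d' '' Δ := fun x hx => by
    rcases a8 (i1 hx) with h1 | ⟨⟨y, r⟩, hp, h1⟩
    · exact h1
    rcases b8 (i2 hx.symm) with h2 | ⟨⟨y', r'⟩, hp', h2⟩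
    · exact h2.symm
    obtain ⟨-, m, hm⟩ := h.eq hp.1 hp'.1 (h1.trans h2.symm)
    rcases hp.2.1.eq_or_lt with h3 | h3
    · exact Or.inl ⟨y, hΔ hp.1, by rw [hd.bd y hp.1, ← h1]; exact congrArg (fun t => b (y, t)) h3⟩
    · have h4 := nint _ m hm (by linarith [hp'.2.2]) (by linarith [hp.2.2, hp'.2.1])
      have h5 : 1 / 2 = r := by linarith [hp.2.2, hp'.2.1]
      exact Or.inr ⟨y, hΔ hp.1, by rw [hd'.bd y hp.1, ← h1]; exact congrArg (fun t => b (y, t)) h5⟩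
  set g : P × ℝ → V := fun p => if p.2 ≤ 1 / 2 then e.f p else e'.f p with hg
  have g1 : EqOn g e.f (Δ ×ˢ Icc 0 (1 / 2)) := fun p hp => if_pos hp.2.2
  have g2 : EqOn g e'.f (Δ ×ˢ Icc (1 / 2) 1) := by
    rintro ⟨y, r⟩ hp
    simp only [hg]
    split_ifs with h1
    · obtain rfl : r = 1 / 2 := le_antisymm h1 hp.2.1
      rw [(a1 y hp.1).2, (b1 y hp.1).1]
    · rfl
  have cs : ∀ p ∈ Δ ×ˢ Icc (0 : ℝ) 1, p ∈ Δ ×ˢ Icc (0 : ℝ) (1 / 2) ∨ p ∈ Δ ×ˢ Icc (1 / 2 : ℝ) 1 :=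
    fun p hp => (le_total p.2 (1 / 2)).imp (fun h1 => ⟨hp.1, hp.2.1, h1⟩) fun h1 => ⟨hp.1, h1, hp.2.2⟩
  have mix : ∀ p ∈ Δ ×ˢ Icc (0 : ℝ) (1 / 2), ∀ p' ∈ Δ ×ˢ Icc (1 / 2 : ℝ) 1, p'.2 < 1 →
      e.f p = e'.f p' → p = p' := by
    intro p hp p' hp' h1 h2
    rcases i3 ⟨e.mf hp, h2 ▸ e'.mf hp'⟩ with ⟨y, hy, h3⟩ | ⟨y, hy, h3⟩
    · have := e'.injOn hp' (show ((y, 1) : P × ℝ) ∈ _ from ⟨hy, by norm_num, le_rfl⟩)
        (by rw [← h2, ← h3, (b1 y hy).2])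
      rw [this] at h1; exact absurd h1 (lt_irrefl _)
    · rw [e.injOn hp (show ((y, 1 / 2) : P × ℝ) ∈ _ from ⟨hy, by norm_num, le_rfl⟩)
        (by rw [← h3, (a1 y hy).2]),
        e'.injOn hp' (show ((y, 1 / 2) : P × ℝ) ∈ _ from ⟨hy, le_rfl, by norm_num⟩)
        (by rw [← h2, ← h3, (b1 y hy).1])]
  refine ⟨g, ((e.pf.congr g1).union (e'.pf.congr g2) (h.ball.isClosed.prod isClosed_Icc)
    (h.ball.isClosed.prod isClosed_Icc)).mono cs, fun p hp p' hp' h1 => ?_, fun p hp => ?_,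
    fun y hy => ?_, fun p hp => ?_⟩
  · rcases cs p ⟨hp.1, Ico_subset_Icc_self hp.2⟩ with h2 | h2 <;>
      rcases cs p' ⟨hp'.1, Ico_subset_Icc_self hp'.2⟩ with h3 | h3
    · rw [g1 h2, g1 h3] at h1; exact e.injOn h2 h3 h1
    · rw [g1 h2, g2 h3] at h1; exact mix p h2 p' h3 hp'.2.2 h1
    · rw [g2 h2, g1 h3] at h1; exact (mix p' h3 p h2 hp.2.2 h1.symm).symm
    · rw [g2 h2, g2 h3] at h1; exact e'.injOn h2 h3 h1
  · rcases cs p hp with h2 | h2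
    · rw [g1 h2]; exact a4 (e.mf h2)
    · rw [g2 h2]; exact b4 (e'.mf h2)
  · rw [g2 (x := (y, 1)) ⟨hy, by norm_num, le_rfl⟩, g1 (x := (y, 0)) ⟨hy, le_rfl, by norm_num⟩,
      (a1 y hy).1, (b1 y hy).2]
  · rcases cs p ⟨hΔ hp.1, hp.2⟩ with h2 | h2
    · rw [g1 h2]; exact a2 ⟨hp.1, h2.2⟩
    · rw [g2 h2]; exact b2 ⟨hp.1, h2.2⟩

/-- **recognition of the solid torus** -/
theorem solid (hD : DehnStmt) (hTh : ThickStmt) : SolidStmt := by
  intro Δ dΔ b W f hΔ hb hfib hW hM hf hfW hfb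
  have h : Tor Δ dΔ b := ⟨hΔ, hb, hfib⟩
  have mT : ∀ s, ∀ y ∈ dΔ, b (y, s) ∈ b '' (dΔ ×ˢ univ) := fun s y hy => ⟨_, ⟨hy, trivial⟩, rfl⟩
  obtain ⟨d, hd, -⟩ : ∃ d, Mer Δ dΔ b W 0 d ∧ MapsTo d Δ W := by
    obtain ⟨a, rfl⟩ := hΔ
    exact mer_of_dehn hD h hM Subset.rfl inter_subset_right (mT 0) (a.restrImage sph_subset_cube)
      (hf.comp a.pf.1 a.mf) (hfW.comp a.mf) fun y hy => hfb _ ⟨y, hy, rfl⟩
  obtain ⟨φ, f', f1, f2, f3⟩ := second hTh h hM hd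
  have hDc : IsClosed (d '' Δ) := (hΔ.isCompact.image_of_continuousOn hd.pl.1).isClosed
  obtain ⟨d', hd', hd''⟩ := mer_of_dehn hD h (mf_inter hM hDc.isOpen_compl) inter_subset_left
    (fun x hx => ⟨hx.2, hx.1.2⟩) (s := 1 / 2) (fun y hy => ⟨mT _ y hy, by
      rintro ⟨z, hz, ez⟩
      have h1 := hd.int z hz (ez ▸ mT _ y hy)
      rw [hd.bd z h1] at ez
      have := (h.eq' h1 hy ez (by norm_num [abs_lt])).2
      norm_num at this⟩) φ f1 f2 f3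
  obtain ⟨g, g1, g2, g3, g4, g5⟩ := period h hW hM hd hd' fun y hy y' hy' e =>
    (hd'' hy').2 ⟨y, hy, e⟩
  set G : P × ℝ → V := fun p => g (p.1, Int.fract p.2) with hG
  have fr : ∀ s : ℝ, Int.fract s ∈ Ico (0 : ℝ) 1 := fun s => ⟨Int.fract_nonneg s, Int.fract_lt_one s⟩
  have G1 : ∀ n : ℤ, PLOn G (Δ ×ˢ Icc (n : ℝ) (n + 1)) := fun n => by
    refine (g1.comp (pl_pair (pl_fst (plOn_id _)) (pl_sub_const (pl_snd (plOn_id _)) (n : ℝ)))
      fun p hp => ⟨hp.1, by linarith [hp.2.1], by linarith [hp.2.2]⟩).congr ?_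
    rintro ⟨y, s⟩ hp
    rcases hp.2.2.eq_or_lt with h1 | h1
    · have h2 : s = ((n + 1 : ℤ) : ℝ) := by push_cast; exact h1
      have h3 : s - n = 1 := by rw [h2]; push_cast; ring
      show g (y, Int.fract s) = g (y, s - n)
      rw [h3, g4 y hp.1, h2, Int.fract_intCast]
    · show g (y, Int.fract s) = g (y, s - n)
      rw [Int.fract, Int.floor_eq_iff.2 ⟨hp.2.1, h1⟩]
  have G2 : ∀ n : ℤ, PLOn G (Δ ×ˢ Icc ((n : ℝ) - 1) (n + 1)) := fun n => by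
    refine ((G1 (n - 1)).union (G1 n) (hΔ.isClosed.prod isClosed_Icc)
      (hΔ.isClosed.prod isClosed_Icc)).mono fun p hp => ?_
    push_cast
    exact (le_total p.2 n).imp (fun h1 => ⟨hp.1, hp.2.1, by linarith⟩) fun h1 => ⟨hp.1, h1, hp.2.2⟩
  have G3 : ∀ p ∈ Δ ×ˢ (univ : Set ℝ), ∀ p' ∈ Δ ×ˢ (univ : Set ℝ),
      G p = G p' ↔ p.1 = p'.1 ∧ ∃ m : ℤ, p.2 - p'.2 = m := fun p hp p' hp' => by
    constructor
    · intro e
      have h1 := Prod.ext_iff.1 (g2 (show (p.1, Int.fract p.2) ∈ _ from ⟨hp.1, fr _⟩)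
        (show (p'.1, Int.fract p'.2) ∈ _ from ⟨hp'.1, fr _⟩) e)
      exact ⟨h1.1, Int.fract_eq_fract.1 h1.2⟩
    · rintro ⟨h1, h2⟩
      simp only [hG, h1, Int.fract_eq_fract.2 h2]
  have G4 : EqOn G b (dΔ ×ˢ univ) := fun p hp =>
    (g5 (x := (p.1, Int.fract p.2)) ⟨hp.1, Ico_subset_Icc_self (fr _)⟩).trans (h.fract hp.1 p.2)
  have G5 : MapsTo G (Δ ×ˢ univ) W := fun p hp => g3 ⟨hp.1, Ico_subset_Icc_self (fr _)⟩
  refine ⟨G, fun p hp => ?_, G4, G3, G5.image_subset.antisymm ?_⟩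
  · have h1 := Int.floor_le p.2
    have h2 := Int.lt_floor_add_one p.2
    refine ⟨min 1 (⌊p.2⌋ + 1 - p.2), lt_min one_pos (by linarith), (G2 ⌊p.2⌋).mono fun q hq => ?_⟩
    have h3 : |q.2 - p.2| < min 1 (⌊p.2⌋ + 1 - p.2) :=
      (le_max_right _ _).trans_lt (show max (dist q.1 p.1) (dist q.2 p.2) < _ from hq.1)
    rw [lt_min_iff, abs_lt, abs_lt] at h3
    exact ⟨hq.2.1, by linarith [h3.1.1], by linarith [h3.2.2]⟩
  · have oΔ : IsOpen (Δ \ dΔ) := by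
      obtain ⟨a, ha⟩ := hΔ
      rw [R096.Cb_609.diff_eq_image a ha]
      exact R105.Iod1_690.isOpen_image_fd rfl isOpen_ball (a.pf.1.mono ball_subset_closedBall)
        (a.injOn.mono ball_subset_closedBall)
    have o1 : ∀ c : ℝ, IsOpen (G '' ((Δ \ dΔ) ×ˢ Ioo c (c + 1))) := fun c => by
      have h1 := Int.floor_le c
      have h2 := Int.lt_floor_add_one c
      refine R105.Iod1_690.isOpen_image_fd (by simp) (oΔ.prod isOpen_Ioo)
        ((G2 (⌊c⌋ + 1)).1.mono fun p hp => ⟨hp.1.1, ?_, ?_⟩) fun p hp p' hp' e => ?_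
      · push_cast; linarith [hp.2.1]
      · push_cast; linarith [hp.2.2]
      · obtain ⟨h3, m, hm⟩ := (G3 p ⟨hp.1.1, trivial⟩ p' ⟨hp'.1.1, trivial⟩).1 e
        have h4 : (-1 : ℝ) < m := by linarith [hp.2.1, hp'.2.2]
        have h5 : (m : ℝ) < 1 := by linarith [hp.2.2, hp'.2.1]
        have h6 : m = 0 := by
          have h7 : -1 < m := by exact_mod_cast h4
          have h8 : m < 1 := by exact_mod_cast h5
          omega
        rw [h6, Int.cast_zero, sub_eq_zero] at hm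
        exact Prod.ext h3 hm
    have o2 : IsOpen (G '' ((Δ \ dΔ) ×ˢ univ)) := isOpen_iff_mem_nhds.2 (by
      rintro _ ⟨p, hp, rfl⟩
      exact mem_of_superset ((o1 (p.2 - 1 / 2)).mem_nhds ⟨p, ⟨hp.1, by linarith, by linarith⟩, rfl⟩)
        (image_mono (prod_mono Subset.rfl (subset_univ _))))
    have c1 : IsClosed (G '' (Δ ×ˢ univ)) := by
      have : G '' (Δ ×ˢ univ) = G '' (Δ ×ˢ Icc ((0 : ℤ) : ℝ) ((0 : ℤ) + 1)) := by
        refine Subset.antisymm ?_ (image_mono (prod_mono Subset.rfl (subset_univ _)))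
        rintro _ ⟨p, hp, rfl⟩
        refine ⟨(p.1, Int.fract p.2), ⟨hp.1, ?_, ?_⟩, by simp only [hG, Int.fract_fract]⟩
        · simp
        · simpa using (fr p.2).2.le
      rw [this]
      exact ((hΔ.isCompact.prod isCompact_Icc).image_of_continuousOn (G1 0).1).isClosed
    obtain ⟨y0, hy0⟩ := hΔ.nonempty_diff
    have h1 : W \ b '' (dΔ ×ˢ univ) ⊆ G '' ((Δ \ dΔ) ×ˢ univ) := by
      refine (mf_in hM hW.isClosed h.conn).subset_left_of_subset_union o2 c1.isOpen_compl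
        (disjoint_left.2 fun x hx hx' => hx' (image_mono (prod_mono sdiff_subset Subset.rfl) hx))
        (fun x hx => ?_) ⟨G (y0, 0), ⟨G5 ⟨hy0.1, trivial⟩, ?_⟩, _, ⟨hy0, trivial⟩, rfl⟩
      · by_cases h2 : x ∈ G '' (Δ ×ˢ univ)
        · obtain ⟨p, hp, rfl⟩ := h2
          exact Or.inl ⟨p, ⟨⟨hp.1, fun h3 => hx.2 ⟨p, ⟨h3, trivial⟩, (G4 ⟨h3, trivial⟩).symm⟩⟩,
            trivial⟩, rfl⟩
        · exact Or.inr h2
      · rintro ⟨p, hp, ep⟩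
        rw [← G4 hp] at ep
        have h3 : p.1 = y0 := ((G3 p ⟨hΔ.subset hp.1, trivial⟩ _ ⟨hy0.1, trivial⟩).1 ep).1
        exact hy0.2 (h3 ▸ hp.1)
    intro x hx
    by_cases h2 : x ∈ b '' (dΔ ×ˢ univ)
    · obtain ⟨p, hp, rfl⟩ := h2
      exact ⟨p, ⟨hΔ.subset hp.1, trivial⟩, G4 hp⟩
    · exact image_mono (prod_mono sdiff_subset Subset.rfl) (h1 ⟨hx, h2⟩)

end Crest.Agent.X212.Sol49
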