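import Crest.Agent.X212.Sol49.Top
import Crest.Agent.R096.Ar1_241
import Crest.Agent.R096.Cb3_609
import Crest.Agent.R096.Bd1_416

/-!
Row 212, layer T, package SOLID (helper49), part 2: a sphere inside a compact manifold with
connected boundary bounds a ball inside it; the cylinder between two discs.
-/

set_option autoImplicit false
set_option linter.style.longLine false

open Set Metric Filter Topology

namespace Crest.Agent.X212.Sol49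

open Crest.Agent.R096.Ce_537 Crest.Agent.X212.Prd34 Crest.Agent.R096.Cx_609 Crest.Agent.R096.Bd_416

/-- Alexander's theorem (`R096.Ar_241.p2_fin`) -/
def Alex : Prop := ∀ S : Set V, Nonempty (PLEquiv (sph 3) S) → ∃ H : V ≃ₜ V,
  R096.Ce_537.PLOn H (cube 3) ∧ R096.Ce_537.PLOn H.symm (H '' cube 3) ∧ H '' sph 3 = S

theorem finConv_bd {E : Type*} [NormedAddCommGroup E] [NormedSpace ℝ E] [FiniteDimensional ℝ E]
    {k : ℕ} {Q dQ : Set E}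
    (hQ : IsBall k Q dQ) : FinConv dQ := (isBall_iff.1 hQ).finConv_bd

theorem fill (hA : Alex) {E : Type*} [NormedAddCommGroup E] [NormedSpace ℝ E]
    [FiniteDimensional ℝ E] {Q dQ : Set E}
    (hQ : IsBall 3 Q dQ) {β : E → V} (hβ : R096.Ce_537.PLOn β dQ) (hi : InjOn β dQ) {W T : Set V}
    (hW : IsCompact W) (hM : Mf W T) (hT : IsPreconnected T) (hS : β '' dQ ⊆ W) :
    ∃ (B : Set V) (e : PLEquiv Q B), EqOn e.f β dQ ∧ IsBall 3 B (β '' dQ) ∧ B ⊆ W ∧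
      IsOpen (B \ β '' dQ) ∧ Disjoint (B \ β '' dQ) T := by
  let e0 := equivOfInjOn (finConv_bd hQ) hQ.isClosed_bdry hβ hi
  obtain ⟨H, h1, h2, h3⟩ := hA (β '' dQ) (by
    obtain ⟨a, rfl⟩ := hQ
    exact ⟨(a.restrImage sph_subset_cube).trans e0⟩)
  have hB : IsBall 3 (H '' cube 3) (β '' dQ) :=
    ⟨⟨H, H.symm, h1, h2, mapsTo_image _ _, by rintro _ ⟨x, hx, rfl⟩; simpa using hx,
      fun x _ => H.symm_apply_apply x, fun y _ => H.apply_symm_apply y⟩, h3⟩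
  obtain ⟨e, he, -⟩ := hQ.extend hB e0
  have hO : IsOpen (H '' cube 3 \ β '' dQ) := by
    rw [← h3, ← image_sdiff H.injective, closedBall_sdiff_sphere]
    exact H.isOpenMap _ isOpen_ball
  have hfr : frontier (H '' cube 3) ⊆ β '' dQ := fun x hx => by
    by_contra hn
    exact hx.2 (interior_maximal sdiff_subset hO ⟨hB.isClosed.closure_subset hx.1, hn⟩)
  have hBW : H '' cube 3 ⊆ W := by
    rcases R096.Ar_241.dichotomy (mf_out hM hW.isClosed hT)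
      (disjoint_left.2 fun x hx hx' => hx (hS hx')) hfr with h | h
    · exfalso
      refine noncompact_univ V ((hW.union hB.isCompact).of_isClosed_subset isClosed_univ fun x _ => ?_)
      by_cases hx : x ∈ W
      · exact Or.inl hx
      · exact Or.inr (interior_subset (h hx))
    · intro x hx
      by_contra hn
      exact disjoint_left.1 h hn (subset_closure hx)
  refine ⟨_, e, he, hB, hBW, hO, disjoint_left.2 fun x hx hxT => ?_⟩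
  obtain ⟨-, -, -, -, h4, -⟩ := mf_loc hM hxT
  obtain ⟨y, hy, hy'⟩ := mem_closure_iff.1 h4 _ hO hx
  exact hy' (hBW hy.1)

/-- the data of the boundary torus -/
structure Tor (Δ dΔ : Set P) (b : P × ℝ → V) : Prop where
  ball : IsBall 2 Δ dΔ
  pl : LPL b (dΔ ×ˢ univ)
  fib : ∀ p ∈ dΔ ×ˢ (univ : Set ℝ), ∀ p' ∈ dΔ ×ˢ (univ : Set ℝ),
    b p = b p' ↔ p.1 = p'.1 ∧ ∃ m : ℤ, p.2 - p'.2 = m

variable {Δ dΔ : Set P} {b : P × ℝ → V}

theorem Tor.plOn (h : Tor Δ dΔ b) (s t : ℝ) : R096.Ce_537.PLOn b (dΔ ×ˢ Icc s t) :=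
  lpl_compact h.pl (h.ball.isCompact_bdry.prod isCompact_Icc) (prod_mono Subset.rfl (subset_univ _))

theorem Tor.eq (h : Tor Δ dΔ b) {y y' : P} {s s' : ℝ} (hy : y ∈ dΔ) (hy' : y' ∈ dΔ)
    (e : b (y, s) = b (y', s')) : y = y' ∧ ∃ m : ℤ, s - s' = m :=
  (h.fib _ ⟨hy, trivial⟩ _ ⟨hy', trivial⟩).1 e

theorem Tor.eq' (h : Tor Δ dΔ b) {y y' : P} {s s' : ℝ} (hy : y ∈ dΔ) (hy' : y' ∈ dΔ)
    (e : b (y, s) = b (y', s')) (hs : |s - s'| < 1) : y = y' ∧ s = s' := by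
  obtain ⟨h1, m, hm⟩ := h.eq hy hy' e
  rw [hm] at hs
  have : m = 0 := by
    have h2 : |m| < 1 := by exact_mod_cast hs
    exact Int.abs_lt_one_iff.1 h2
  exact ⟨h1, by rw [this] at hm; push_cast at hm; linarith⟩

theorem Tor.per (h : Tor Δ dΔ b) {y : P} (hy : y ∈ dΔ) (s : ℝ) (m : ℤ) : b (y, s + m) = b (y, s) :=
  (h.fib _ ⟨hy, trivial⟩ _ ⟨hy, trivial⟩).2 ⟨rfl, m, by ring⟩

theorem Tor.cont (h : Tor Δ dΔ b) : ContinuousOn b (dΔ ×ˢ univ) := fun x hx => by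
  obtain ⟨r, hr, h1⟩ := h.pl x hx
  exact (h1.1 x ⟨mem_ball_self hr, hx⟩).mono_of_mem_nhdsWithin
    (mem_of_superset (inter_mem_nhdsWithin _ (ball_mem_nhds x hr)) fun y hy => ⟨hy.2, hy.1⟩)

theorem Tor.conn (h : Tor Δ dΔ b) : IsPreconnected (b '' (dΔ ×ˢ univ)) := by
  refine IsPreconnected.image (IsPreconnected.prod ?_ isPreconnected_univ) _ h.cont
  obtain ⟨a, rfl⟩ := h.ball
  exact (isPreconnected_sphere (by rw [rank_fin_fun]; norm_num) 0 1).image _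
    (a.pf.1.mono sph_subset_cube)

/-- a meridian disc at level `s` -/
structure Mer (Δ dΔ : Set P) (b : P × ℝ → V) (W : Set V) (s : ℝ) (d : P → V) : Prop where
  pl : R096.Ce_537.PLOn d Δ
  inj : InjOn d Δ
  sub : MapsTo d Δ W
  bd : ∀ y ∈ dΔ, d y = b (y, s)
  int : ∀ y ∈ Δ, d y ∈ b '' (dΔ ×ˢ univ) → y ∈ dΔ

open Classical in
/-- the cylinder between two meridian discs -/
theorem cyl (hA : Alex) (h : Tor Δ dΔ b) {W : Set V} (hW : IsCompact W)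
    (hM : Mf W (b '' (dΔ ×ˢ univ))) {s t : ℝ} (hst : s < t) (hst' : t - s < 1) {d d' : P → V}
    (hd : Mer Δ dΔ b W s d) (hd' : Mer Δ dΔ b W t d') (hdd : ∀ y ∈ Δ, ∀ y' ∈ Δ, d y ≠ d' y') :
    ∃ (B S : Set V) (e : PLEquiv (Δ ×ˢ Icc s t) B), (∀ y ∈ Δ, e.f (y, s) = d y ∧ e.f (y, t) = d' y) ∧
      EqOn e.f b (dΔ ×ˢ Icc s t) ∧ IsBall 3 B S ∧ B ⊆ W ∧ IsOpen (B \ S) ∧
      Disjoint (B \ S) (b '' (dΔ ×ˢ univ)) ∧ d '' Δ ∪ d' '' Δ ⊆ S ∧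
      S ⊆ d '' Δ ∪ d' '' Δ ∪ b '' (dΔ ×ˢ Icc s t) := by
  have hI : IsBall 1 (Icc s t) {s, t} := by
    rw [← segment_eq_Icc hst.le]; exact R096.Cb_609.isBall_segment hst.ne
  have hQ : IsBall 3 _ _ := h.ball.prod hI
  set β : P × ℝ → V := fun p => if p.2 = s then d p.1 else if p.2 = t then d' p.1 else b p with hβ
  have β1 : ∀ y, β (y, s) = d y := fun y => if_pos rfl
  have β2 : ∀ y, β (y, t) = d' y := fun y => by simp [hβ, hst.ne']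
  have β3 : ∀ y ∈ dΔ, ∀ r, β (y, r) = b (y, r) := fun y hy r => by
    simp only [hβ]
    split_ifs with h1 h2
    · rw [h1]; exact hd.bd y hy
    · rw [h2]; exact hd'.bd y hy
    · rfl
  have hΔ := h.ball.subset
  have cs : ∀ p ∈ dΔ ×ˢ Icc s t ∪ Δ ×ˢ ({s, t} : Set ℝ), (p.1 ∈ dΔ ∧ p.2 ∈ Icc s t ∧ β p = b p) ∨
      (p.1 ∈ Δ ∧ p.2 = s ∧ β p = d p.1) ∨ (p.1 ∈ Δ ∧ p.2 = t ∧ β p = d' p.1) := by
    rintro ⟨y, r⟩ (hp | ⟨hp, rfl | rfl⟩)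
    exacts [Or.inl ⟨hp.1, hp.2, β3 y hp.1 r⟩, Or.inr (Or.inl ⟨hp, rfl, β1 y⟩),
      Or.inr (Or.inr ⟨hp, rfl, β2 y⟩)]
  have hpl : R096.Ce_537.PLOn β (dΔ ×ˢ Icc s t ∪ Δ ×ˢ ({s, t} : Set ℝ)) := by
    have c1 := h.ball.isClosed
    refine R096.Ce_537.PLOn.union ((h.plOn s t).congr fun p hp => β3 p.1 hp.1 p.2) ?_
      (h.ball.isClosed_bdry.prod isClosed_Icc) (c1.prod (toFinite _).isClosed)
    rw [insert_eq, prod_union]
    refine R096.Ce_537.PLOn.union ?_ ?_ (c1.prod isClosed_singleton) (c1.prod isClosed_singleton)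
    · exact (hd.pl.comp (pl_fst (plOn_id _)) fun p hp => hp.1).congr
        (by rintro ⟨y, r⟩ ⟨-, rfl⟩; exact β1 y)
    · exact (hd'.pl.comp (pl_fst (plOn_id _)) fun p hp => hp.1).congr
        (by rintro ⟨y, r⟩ ⟨-, rfl⟩; exact β2 y)
  have mix : ∀ {u : ℝ} {c : P → V}, Mer Δ dΔ b W u c → u ∈ Icc s t → ∀ {y y' : P} {r : ℝ}, y ∈ dΔ →
      r ∈ Icc s t → y' ∈ Δ → b (y, r) = c y' → y = y' ∧ r = u := by
    intro u c hc hu y y' r hy hr hy' e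
    have h1 := hc.int y' hy' ⟨(y, r), ⟨hy, trivial⟩, e⟩
    rw [hc.bd y' h1] at e
    exact h.eq' hy h1 e (by rw [abs_lt]; constructor <;> linarith [hu.1, hu.2, hr.1, hr.2])
  have ms : s ∈ Icc s t := left_mem_Icc.2 hst.le
  have mt : t ∈ Icc s t := right_mem_Icc.2 hst.le
  have hinj : InjOn β (dΔ ×ˢ Icc s t ∪ Δ ×ˢ ({s, t} : Set ℝ)) := by
    rintro ⟨y, r⟩ hp ⟨y', r'⟩ hp' e
    rcases cs _ hp with ⟨a1, a2, a3⟩ | ⟨a1, a2, a3⟩ | ⟨a1, a2, a3⟩ <;>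
      rcases cs _ hp' with ⟨b1, b2, b3⟩ | ⟨b1, b2, b3⟩ | ⟨b1, b2, b3⟩ <;> rw [a3, b3] at e
    · exact Prod.ext_iff.2 (h.eq' a1 b1 e (by
        rw [abs_lt]; constructor <;> linarith [a2.1, a2.2, b2.1, b2.2]))
    · exact Prod.ext_iff.2 ((mix hd ms a1 a2 b1 e).imp_right fun h => h.trans b2.symm)
    · exact Prod.ext_iff.2 ((mix hd' mt a1 a2 b1 e).imp_right fun h => h.trans b2.symm)
    · exact (Prod.ext_iff.2 ((mix hd ms b1 b2 a1 e.symm).imp_right fun h => h.trans a2.symm)).symm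
    · exact Prod.ext (hd.inj a1 b1 e) (a2.trans b2.symm)
    · exact (hdd _ a1 _ b1 e).elim
    · exact (Prod.ext_iff.2 ((mix hd' mt b1 b2 a1 e.symm).imp_right fun h => h.trans a2.symm)).symm
    · exact (hdd _ b1 _ a1 e.symm).elim
    · exact Prod.ext (hd'.inj a1 b1 e) (a2.trans b2.symm)
  obtain ⟨B, e, e1, e2, e3, e4, e5⟩ := fill hA hQ hpl hinj hW hM h.conn (by
    rintro _ ⟨p, hp, rfl⟩
    rcases cs _ hp with ⟨a1, a2, a3⟩ | ⟨a1, a2, a3⟩ | ⟨a1, a2, a3⟩ <;> rw [a3]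
    exacts [hM.1 ⟨p, ⟨a1, trivial⟩, rfl⟩, hd.sub a1, hd'.sub a1])
  refine ⟨B, _, e, fun y hy => ⟨?_, ?_⟩, fun p hp => ?_, e2, e3, e4, e5, ?_, ?_⟩
  · rw [e1 (x := (y, s)) (Or.inr ⟨hy, Or.inl rfl⟩), β1]
  · rw [e1 (x := (y, t)) (Or.inr ⟨hy, Or.inr rfl⟩), β2]
  · rw [e1 (Or.inl hp)]; exact β3 p.1 hp.1 p.2
  · rintro _ (⟨y, hy, rfl⟩ | ⟨y, hy, rfl⟩)
    exacts [⟨(y, s), Or.inr ⟨hy, Or.inl rfl⟩, β1 y⟩, ⟨(y, t), Or.inr ⟨hy, Or.inr rfl⟩, β2 y⟩]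
  · rintro _ ⟨p, hp, rfl⟩
    rcases cs _ hp with ⟨a1, a2, a3⟩ | ⟨a1, a2, a3⟩ | ⟨a1, a2, a3⟩ <;> rw [a3]
    exacts [Or.inr ⟨p, ⟨a1, a2⟩, rfl⟩, Or.inl (Or.inl ⟨_, a1, rfl⟩), Or.inl (Or.inr ⟨_, a1, rfl⟩)]

end Crest.Agent.X212.Sol49
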