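import Crest.Agent.X212.Prd34.Leaf

/-!
Row 212, layer T, package SOLID (helper49), part 1: elementary topology of `Prd34.Mf`.
-/

set_option autoImplicit false
set_option linter.style.longLine false

open Set Metric Filter Topology

namespace Crest.Agent.X212.Sol49

open Crest.Agent.R096.Ce_537 Crest.Agent.X212.Prd34

theorem side_conn {X : Type*} [TopologicalSpace X] [PreconnectedSpace X] {O S : Set X}
    (hO : IsOpen O) (hS : IsPreconnected S) (hcl : closure O ⊆ O ∪ S) (hSO : S ⊆ closure O)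
    (hloc : ∀ x ∈ S, ∃ B ∈ 𝓝 x, IsPreconnected (B ∩ O)) : IsPreconnected O := by
  intro u v hu hv hcov h1 h2
  by_contra hne
  have key : ∀ u v : Set X, IsOpen u → IsOpen v → O ⊆ u ∪ v → (O ∩ u).Nonempty → (O ∩ v).Nonempty →
      ¬ (O ∩ (u ∩ v)).Nonempty → (S ∩ closure (O ∩ u)).Nonempty := by
    intro u v hu hv hcov h1 h2 hne
    by_contra hn
    have hc : IsClosed (O ∩ u) := by
      refine closure_subset_iff_isClosed.1 fun x hx => ?_
      rcases hcl (closure_mono inter_subset_left hx) with h | h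
      · refine ⟨h, (hcov h).resolve_right fun h' => hne ?_⟩
        obtain ⟨y, hy, hy'⟩ := mem_closure_iff.1 hx v hv h'
        exact ⟨y, hy'.1, hy'.2, hy⟩
      · exact (hn ⟨x, h, hx⟩).elim
    have hu' := IsClopen.eq_univ ⟨hc, hO.inter hu⟩ h1
    obtain ⟨y, hy⟩ := h2
    have : y ∈ O ∩ u := hu' ▸ mem_univ y
    exact hne ⟨y, hy.1, this.2, hy.2⟩
  have k1 := key u v hu hv hcov h1 h2 hne
  have k2 := key v u hv hu (by rwa [union_comm]) h2 h1 (by rwa [inter_comm v u])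
  obtain ⟨x, hxS, hx1, hx2⟩ := isPreconnected_closed_iff.1 hS _ _ isClosed_closure isClosed_closure
    (fun x hx => by
      rw [← closure_union, ← inter_union_distrib_left, inter_eq_left.2 hcov]; exact hSO hx) k1 k2
  obtain ⟨B, hB, hBc⟩ := hloc x hxS
  obtain ⟨y, hy, hy'⟩ := mem_closure_iff_nhds.1 hx1 B hB
  obtain ⟨z, hz, hz'⟩ := mem_closure_iff_nhds.1 hx2 B hB
  obtain ⟨w, hw, hw'⟩ := hBc u v hu hv (inter_subset_right.trans hcov) ⟨y, ⟨hy, hy'.1⟩, hy'.2⟩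
    ⟨z, ⟨hz, hz'.1⟩, hz'.2⟩
  exact hne ⟨w, hw.2, hw'⟩

theorem zero_mem_closure (c : ℝ) (hc : |c| = 1) :
    (0 : V) ∈ closure (cube 3 ∩ {y : V | 0 < c * y 2}) := by
  have h1 : Tendsto (fun t : ℝ => (fun _ => t * c : V)) (𝓝[>] 0) (𝓝 0) := by
    have : Continuous fun t : ℝ => (fun _ => t * c : V) := by fun_prop
    have h2 := this.tendsto 0
    simp only [zero_mul] at h2
    exact h2.mono_left nhdsWithin_le_nhds
  refine mem_closure_of_tendsto h1 ?_
  filter_upwards [Ioo_mem_nhdsGT one_pos] with t ht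
  refine ⟨?_, ?_⟩
  · rw [mem_closedBall_zero_iff, pi_norm_le_iff_of_nonneg zero_le_one]
    intro i
    rw [Real.norm_eq_abs, abs_mul, hc, abs_of_pos ht.1]; linarith [ht.2]
  · show 0 < c * (t * c)
    have : c * c = 1 := by rw [← abs_mul_abs_self, hc]; ring
    nlinarith [ht.1]

theorem convex_half (c : ℝ) : Convex ℝ (cube 3 ∩ {y : V | 0 < c * y 2}) :=
  (convex_closedBall _ _).inter (convex_halfSpace_gt (f := fun y : V => c * y 2)
    ⟨fun x y => by simp [mul_add], fun a x => by simp; ring⟩ 0)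

theorem mf_loc {M dM : Set V} (hM : Mf M dM) {x : V} (hx : x ∈ dM) :
    ∃ B ∈ 𝓝 x, IsPreconnected (B ∩ Mᶜ) ∧ IsPreconnected (B ∩ (M \ dM)) ∧
      x ∈ closure Mᶜ ∧ x ∈ closure (M \ dM) := by
  obtain ⟨B, e, rfl, hB, h1, h2⟩ := hM.2.2 x hx
  have mem : ∀ {A Q : Set V}, B ∩ A = e.f '' (cube 3 ∩ Q) → ∀ y ∈ cube 3, (e.f y ∈ A ↔ y ∈ Q) := by
    intro A Q h y hy
    constructor
    · intro h'
      obtain ⟨z, hz, ez⟩ := h.le ⟨e.mf hy, h'⟩
      rw [← e.injOn hz.1 hy ez]; exact hz.2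
    · intro h'
      exact (h.ge ⟨y, ⟨hy, h'⟩, rfl⟩).2
  have e1 : B ∩ Mᶜ = e.f '' (cube 3 ∩ {y : V | 0 < (-1) * y 2}) := by
    ext z
    constructor
    · rintro ⟨hz, hz'⟩
      refine ⟨e.g z, ⟨e.mg hz, ?_⟩, e.ri z hz⟩
      have := (mem h1 _ (e.mg hz)).not.1 (by rw [e.ri z hz]; exact hz')
      simp only [up, mem_ofPred_eq, not_le] at this ⊢
      linarith
    · rintro ⟨y, ⟨hy, hy'⟩, rfl⟩
      refine ⟨e.mf hy, (mem h1 y hy).not.2 ?_⟩
      simp only [up, mem_ofPred_eq, not_le] at hy' ⊢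
      linarith
  have e2 : B ∩ (M \ dM) = e.f '' (cube 3 ∩ {y : V | 0 < 1 * y 2}) := by
    ext z
    constructor
    · rintro ⟨hz, hz', hz''⟩
      refine ⟨e.g z, ⟨e.mg hz, ?_⟩, e.ri z hz⟩
      have a1 := (mem h1 _ (e.mg hz)).1 (by rw [e.ri z hz]; exact hz')
      have a2 := (mem h2 _ (e.mg hz)).not.1 (by rw [e.ri z hz]; exact hz'')
      simp only [up, fl, mem_ofPred_eq, one_mul] at a1 a2 ⊢
      exact lt_of_le_of_ne a1 (Ne.symm a2)
    · rintro ⟨y, ⟨hy, hy'⟩, rfl⟩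
      simp only [mem_ofPred_eq, one_mul] at hy'
      exact ⟨e.mf hy, (mem h1 y hy).2 hy'.le, (mem h2 y hy).not.2 hy'.ne'⟩
  have cl : ∀ c : ℝ, |c| = 1 → e.f 0 ∈ closure (e.f '' (cube 3 ∩ {y : V | 0 < c * y 2})) :=
    fun c hc => ((e.pf.1 0 (mem_closedBall_self zero_le_one)).mono inter_subset_left).mem_closure_image
      (zero_mem_closure c hc)
  refine ⟨B, hB, ?_, ?_, ?_, ?_⟩
  · rw [e1]; exact (convex_half _).isPreconnected.image _ (e.pf.1.mono inter_subset_left)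
  · rw [e2]; exact (convex_half _).isPreconnected.image _ (e.pf.1.mono inter_subset_left)
  · exact closure_mono (e1.ge.trans inter_subset_right) (cl (-1) (by simp))
  · exact closure_mono (e2.ge.trans inter_subset_right) (cl 1 (by simp))

theorem mf_frontier {M dM : Set V} (hM : Mf M dM) (hc : IsClosed M) : frontier M ⊆ dM := by
  intro x hx
  by_contra hn
  exact hx.2 (interior_maximal sdiff_subset hM.2.1 ⟨hc.closure_subset hx.1, hn⟩)

theorem mf_out {M dM : Set V} (hM : Mf M dM) (hc : IsClosed M) (hd : IsPreconnected dM) :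
    IsPreconnected Mᶜ := by
  refine side_conn hc.isOpen_compl hd (fun x hx => ?_) (fun x hx => ?_) fun x hx => ?_
  · by_cases h : x ∈ M
    · exact Or.inr (mf_frontier hM hc ⟨subset_closure h, by rwa [closure_compl] at hx⟩)
    · exact Or.inl h
  · obtain ⟨B, -, -, -, h, -⟩ := mf_loc hM hx; exact h
  · obtain ⟨B, hB, h, -⟩ := mf_loc hM hx; exact ⟨B, hB, h⟩

theorem mf_in {M dM : Set V} (hM : Mf M dM) (hc : IsClosed M) (hd : IsPreconnected dM) :
    IsPreconnected (M \ dM) := by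
  refine side_conn hM.2.1 hd (fun x hx => ?_) (fun x hx => ?_) fun x hx => ?_
  · by_cases h : x ∈ dM
    · exact Or.inr h
    · exact Or.inl ⟨closure_minimal sdiff_subset hc hx, h⟩
  · obtain ⟨B, -, -, -, -, h⟩ := mf_loc hM hx; exact h
  · obtain ⟨B, hB, -, h, -⟩ := mf_loc hM hx; exact ⟨B, hB, h⟩

/-- scaling of the cube -/
noncomputable def scl (c : ℝ) (hc : 0 < c) : PLEquiv (cube 3) (closedBall (0 : V) c) where
  f y := c • y
  g y := c⁻¹ • y
  pf := plOn_affine (c • AffineMap.id ℝ V) _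
  pg := plOn_affine (c⁻¹ • AffineMap.id ℝ V) _
  mf y hy := by
    rw [mem_closedBall_zero_iff] at hy ⊢
    rw [norm_smul, Real.norm_of_nonneg hc.le]; nlinarith
  mg y hy := by
    rw [mem_closedBall_zero_iff] at hy ⊢
    rw [norm_smul, norm_inv, Real.norm_of_nonneg hc.le, inv_mul_le_iff₀ hc]; linarith
  li y _ := by simp [smul_smul, hc.ne']
  ri y _ := by simp [smul_smul, hc.ne']

theorem mf_inter {M dM U : Set V} (hM : Mf M dM) (hU : IsOpen U) : Mf (M ∩ U) (dM ∩ U) := by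
  refine ⟨inter_subset_inter_left _ hM.1, ?_, fun x hx => ?_⟩
  · have : (M ∩ U) \ (dM ∩ U) = (M \ dM) ∩ U := by ext x; simp only [Set.mem_sdiff, mem_inter_iff]; tauto
    rw [this]; exact hM.2.1.inter hU
  obtain ⟨B, e, rfl, hB, h1, h2⟩ := hM.2.2 x hx.1
  have h0 : (0 : V) ∈ cube 3 := mem_closedBall_self zero_le_one
  obtain ⟨r, hr, hrU⟩ := Metric.nhds_basis_closedBall.mem_iff.1
    ((e.pf.1.continuousAt (closedBall_mem_nhds _ one_pos)) (hU.mem_nhds hx.2))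
  have hc : 0 < min r 1 := lt_min hr one_pos
  have s1 : closedBall (0 : V) (min r 1) ⊆ cube 3 := closedBall_subset_closedBall (min_le_right _ _)
  have s2 : closedBall (0 : V) (min r 1) ⊆ e.f ⁻¹' U :=
    (closedBall_subset_closedBall (min_le_left _ _)).trans hrU
  have key : ∀ {A Q : Set V}, B ∩ A = e.f '' (cube 3 ∩ Q) → (∀ y, min r 1 • y ∈ Q ↔ y ∈ Q) →
      e.f '' closedBall (0 : V) (min r 1) ∩ (A ∩ U) =
        ((scl _ hc).trans (e.restrImage s1)).f '' (cube 3 ∩ Q) := by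
    intro A Q h hQ
    ext z
    constructor
    · rintro ⟨⟨y, hy, rfl⟩, hA, -⟩
      obtain ⟨w, hw, ew⟩ := h.le ⟨e.mf (s1 hy), hA⟩
      obtain rfl := e.injOn hw.1 (s1 hy) ew
      have e3 : min r 1 • (scl _ hc).g w = w := (scl _ hc).ri w hy
      exact ⟨(scl _ hc).g w, ⟨(scl _ hc).mg hy, (hQ _).1 (by rw [e3]; exact hw.2)⟩,
        congrArg e.f e3⟩
    · rintro ⟨y, hy, rfl⟩
      have h3 := (scl _ hc).mf hy.1
      exact ⟨⟨_, h3, rfl⟩, (h.ge ⟨_, ⟨s1 h3, (hQ y).2 hy.2⟩, rfl⟩).2, s2 h3⟩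
  refine ⟨_, (scl _ hc).trans (e.restrImage s1), ?_, ?_, key h1 fun y => ?_, key h2 fun y => ?_⟩
  · show e.f (min r 1 • (0 : V)) = e.f 0
    rw [smul_zero]
  · have h3 : closedBall (0 : V) (min r 1) ∈ 𝓝 (e.g (e.f 0)) := by
      rw [e.li 0 h0]; exact closedBall_mem_nhds _ hc
    filter_upwards [hB, e.pg.1.continuousAt hB h3] with z hz hz' using ⟨e.g z, hz', e.ri z hz⟩
  · simp only [up, mem_ofPred_eq, Pi.smul_apply, smul_eq_mul]
    exact mul_nonneg_iff_of_pos_left hc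
  · simp only [fl, mem_ofPred_eq, Pi.smul_apply, smul_eq_mul, mul_eq_zero, hc.ne', false_or]

/-- locally PL on a compact set -/
theorem lpl_compact {E F : Type*} [NormedAddCommGroup E] [NormedSpace ℝ E] [NormedAddCommGroup F]
    [NormedSpace ℝ F] {f : E → F} {A K : Set E} (hf : LPL f A) (hK : IsCompact K) (hKA : K ⊆ A) :
    PLOn f K := by
  classical
  refine ⟨fun x hx => ?_, ?_⟩
  · obtain ⟨r, hr, h⟩ := hf x (hKA hx)
    exact (h.1 x ⟨mem_ball_self hr, hKA hx⟩).mono_of_mem_nhdsWithin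
      (mem_of_superset (inter_mem_nhdsWithin K (ball_mem_nhds x hr)) fun y hy => ⟨hy.2, hKA hy.1⟩)
  · refine hK.induction_on (p := fun s => ∃ S : Finset (E →ᵃ[ℝ] F), ∀ x ∈ s, ∃ g ∈ S, f x = g x)
      ⟨∅, fun x hx => hx.elim⟩ (fun s t hst ⟨S, h⟩ => ⟨S, fun x hx => h x (hst hx)⟩)
      (fun s t ⟨S, h⟩ ⟨T, h'⟩ => ⟨S ∪ T, fun x hx => hx.elim
        (fun hx => (h x hx).imp fun g hg => ⟨Finset.mem_union_left _ hg.1, hg.2⟩)
        fun hx => (h' x hx).imp fun g hg => ⟨Finset.mem_union_right _ hg.1, hg.2⟩⟩) fun x hx => ?_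
    obtain ⟨r, hr, -, S, h⟩ := hf x (hKA hx)
    exact ⟨_, inter_mem_nhdsWithin K (ball_mem_nhds x hr), S, fun y hy => h y ⟨hy.2, hKA hy.1⟩⟩

end Crest.Agent.X212.Sol49
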