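import Crest.Agent.X212.Sol49.Fill

/-!
Row 212, layer T, package SOLID (helper49), part 3: two disjoint meridian discs.
-/

set_option autoImplicit false
set_option linter.style.longLine false

open Set Metric Filter Topology

namespace Crest.Agent.X212.Sol49

open Crest.Agent.R096.Ce_537 Crest.Agent.X212.Prd34 Crest.Agent.R096.Bd_416
open Crest.Agent.R096.Cx_609 (FinConv equivOfInjOn exists_equiv_of_bijOn finConv_sphere isBall_iff)

variable {Δ dΔ : Set P} {b : P × ℝ → V}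

theorem mer_of_dehn (hD : DehnStmt) (h : Tor Δ dΔ b) {W M dM : Set V} (hM : Mf M dM) (hMW : M ⊆ W)
    (hMT : M ∩ b '' (dΔ ×ˢ univ) ⊆ dM) {s : ℝ} (hs : ∀ y ∈ dΔ, b (y, s) ∈ dM)
    (φ : PLEquiv (sph 2) dΔ) {f : P → V} (hf : ContinuousOn f (cube 2)) (hfM : MapsTo f (cube 2) M)
    (hfb : ∀ y ∈ sph 2, f y = b (φ.f y, s)) : ∃ d, Mer Δ dΔ b W s d ∧ MapsTo d Δ M := by
  have p1 : PLOn (fun y => b (y, s)) dΔ := (h.plOn s s).comp (pl_pair (plOn_id _) (plOn_const s _))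
    fun y hy => ⟨hy, left_mem_Icc.2 le_rfl⟩
  let β := equivOfInjOn (finConv_bd h.ball) h.ball.isClosed_bdry p1 fun y hy y' hy' e => (h.eq hy hy' e).1
  obtain ⟨D, d1, d2, d3⟩ := hD M dM _ (φ.trans β) f hM (by rintro _ ⟨y, hy, rfl⟩; exact hs y hy) hf hfM
    fun y hy => hfb y hy
  obtain ⟨e, e1, -⟩ := h.ball.extend d1 β
  refine ⟨e.f, ⟨e.pf, e.injOn, fun y hy => hMW (d2 (e.mf hy)), fun y hy => e1 hy, fun y hy hT => ?_⟩,
    fun y hy => d2 (e.mf hy)⟩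
  obtain ⟨y', hy', e2⟩ := d3.le ⟨e.mf hy, hMT ⟨d2 (e.mf hy), hT⟩⟩
  rw [e.injOn hy (h.ball.subset hy') (e2.symm.trans (e1 hy').symm)]
  exact hy'

open Classical in
/-- coordinates on the torus -/
noncomputable def crd (dΔ : Set P) (b : P × ℝ → V) (x : V) : P × ℝ :=
  if h : ∃ p ∈ dΔ ×ˢ Ico (0 : ℝ) 1, b p = x then h.choose else 0

theorem Tor.fract (h : Tor Δ dΔ b) {y : P} (hy : y ∈ dΔ) (s : ℝ) : b (y, Int.fract s) = b (y, s) := by
  rw [← h.per hy (Int.fract s) ⌊s⌋, Int.fract_add_floor]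

theorem Tor.crd_eq (h : Tor Δ dΔ b) {y : P} (hy : y ∈ dΔ) (s : ℝ) :
    crd dΔ b (b (y, s)) = (y, Int.fract s) := by
  have h0 : Int.fract s ∈ Ico (0 : ℝ) 1 := ⟨Int.fract_nonneg s, Int.fract_lt_one s⟩
  have h1 : ∃ p ∈ dΔ ×ˢ Ico (0 : ℝ) 1, b p = b (y, s) := ⟨(y, Int.fract s), ⟨hy, h0⟩, h.fract hy s⟩
  rw [crd, dif_pos h1]
  obtain ⟨h2, h3⟩ := h1.choose_spec
  exact Prod.ext_iff.2 (h.eq' h2.1 hy (h3.trans (h.fract hy s).symm) (by
    rw [abs_lt]; constructor <;> linarith [h2.2.1, h2.2.2, h0.1, h0.2]))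

theorem Tor.crd_cont1 (h : Tor Δ dΔ b) :
    ContinuousOn (fun x => (crd dΔ b x).1) (b '' (dΔ ×ˢ univ)) := by
  refine continuousOn_iff_isClosed.2 fun C hC => ⟨b '' ((dΔ ∩ C) ×ˢ Icc 0 1), ?_, ?_⟩
  · exact (((h.ball.isCompact_bdry.inter_right hC).prod isCompact_Icc).image_of_continuousOn
      (h.cont.mono (prod_mono inter_subset_left (subset_univ _)))).isClosed
  · ext x
    constructor
    · rintro ⟨hx, ⟨y, s⟩, hp, rfl⟩
      rw [mem_preimage, h.crd_eq hp.1] at hx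
      exact ⟨⟨(y, Int.fract s), ⟨⟨hp.1, hx⟩, Int.fract_nonneg s, (Int.fract_lt_one s).le⟩,
        h.fract hp.1 s⟩, _, hp, rfl⟩
    · rintro ⟨⟨⟨y, s⟩, hp, rfl⟩, hx⟩
      exact ⟨by rw [mem_preimage, h.crd_eq hp.1.1]; exact hp.1.2, hx⟩

theorem Tor.crd_cont2 (h : Tor Δ dΔ b) :
    ContinuousOn (fun x => (crd dΔ b x).2) (b '' (dΔ ×ˢ Ioo 0 1)) := by
  refine continuousOn_iff_isClosed.2 fun C hC => ⟨b '' (dΔ ×ˢ (Icc 0 1 ∩ C)), ?_, ?_⟩
  · exact ((h.ball.isCompact_bdry.prod (isCompact_Icc.inter_right hC)).image_of_continuousOn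
      (h.cont.mono (prod_mono Subset.rfl (subset_univ _)))).isClosed
  · ext x
    constructor
    · rintro ⟨hx, ⟨y, s⟩, hp, rfl⟩
      rw [mem_preimage, h.crd_eq hp.1, Int.fract_eq_self.2 ⟨hp.2.1.le, hp.2.2⟩] at hx
      exact ⟨⟨(y, s), ⟨hp.1, Ioo_subset_Icc_self hp.2, hx⟩, rfl⟩, _, hp, rfl⟩
    · rintro ⟨⟨⟨y, s⟩, hp, e⟩, ⟨y', s'⟩, hp', rfl⟩
      refine ⟨?_, _, hp', rfl⟩
      rw [mem_preimage, h.crd_eq hp'.1, Int.fract_eq_self.2 ⟨hp'.2.1.le, hp'.2.2⟩,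
        ← (h.eq' hp.1 hp'.1 e (by
          rw [abs_lt]; constructor <;> linarith [hp.2.1.1, hp.2.1.2, hp'.2.1, hp'.2.2])).2]
      exact hp.2.2

theorem norm_P (y : P) : ‖y‖ = max |y 0| |y 1| := by
  refine le_antisymm ((pi_norm_le_iff_of_nonneg (by positivity)).2 fun i => ?_)
    (max_le (norm_le_pi_norm y 0) (norm_le_pi_norm y 1))
  fin_cases i
  exacts [le_max_left _ _, le_max_right _ _]

theorem lv_cube {c : ℝ} (hc : |c| ≤ 1) {y : P} (hy : y ∈ cube 2) : lv c y ∈ cube 3 := by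
  rw [mem_closedBall_zero_iff] at hy ⊢
  refine (pi_norm_le_iff_of_nonneg zero_le_one).2 fun i => ?_
  fin_cases i
  exacts [(norm_le_pi_norm y 0).trans hy, (norm_le_pi_norm y 1).trans hy, hc]

theorem lv_side {c : ℝ} (hc : |c| ≤ 1) {y : P} (hy : y ∈ sph 2) : lv c y ∈ side := by
  refine ⟨lv_cube hc (sph_subset_cube hy), ?_⟩
  rw [mem_sphere_zero_iff_norm, norm_P] at hy
  rcases max_choice |y 0| |y 1| with h | h
  exacts [Or.inl (h.symm.trans hy), Or.inr (h.symm.trans hy)]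

theorem pl_lv (c : ℝ) (K : Set P) : PLOn (lv c) K := pl_pi fun i => by
  fin_cases i
  exacts [pl_apply (plOn_id K) 0, pl_apply (plOn_id K) 1, plOn_const c K]

theorem lv_inj {c : ℝ} {y y' : P} (e : lv c y = lv c y') : y = y' := by
  funext i
  fin_cases i
  exacts [congrFun e 0, congrFun e 1]

theorem second (hTh : ThickStmt) (h : Tor Δ dΔ b) {W : Set V} (hM : Mf W (b '' (dΔ ×ˢ univ)))
    {d : P → V} (hd : Mer Δ dΔ b W 0 d) :
    ∃ (φ : PLEquiv (sph 2) dΔ) (f : P → V), ContinuousOn f (cube 2) ∧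
      MapsTo f (cube 2) (W ∩ (d '' Δ)ᶜ) ∧ ∀ y ∈ sph 2, f y = b (φ.f y, 1 / 2) := by
  have hΔ := h.ball.subset
  have hDT : d '' Δ ∩ b '' (dΔ ×ˢ univ) = d '' dΔ := by
    ext x
    constructor
    · rintro ⟨⟨y, hy, rfl⟩, hx⟩; exact ⟨y, hd.int y hy hx, rfl⟩
    · rintro ⟨y, hy, rfl⟩; exact ⟨⟨y, hΔ hy, rfl⟩, (y, 0), ⟨hy, trivial⟩, (hd.bd y hy).symm⟩
  obtain ⟨R, e, e1, e2, e3, -⟩ := hTh W _ _ _ univ hM (h.ball.image_injOn hd.pl hd.inj)
    hd.sub.image_subset hDT isOpen_univ (subset_univ _)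
  let dE := equivOfInjOn (isBall_iff.1 h.ball).finConv h.ball.isClosed hd.pl hd.inj
  have z1 : |(0 : ℝ)| ≤ 1 := by simp
  have o1 : |(1 : ℝ)| ≤ 1 := by simp
  have m0 : ∀ y ∈ cube 2, e.f (lv 0 y) ∈ d '' Δ := fun y hy => e2.le ⟨_, ⟨lv_cube z1 hy, rfl⟩, rfl⟩
  have mT : ∀ c, |c| ≤ 1 → ∀ y ∈ sph 2, e.f (lv c y) ∈ b '' (dΔ ×ˢ univ) := fun c hc y hy =>
    (e3.ge ⟨_, lv_side hc hy, rfl⟩).2
  have n1 : ∀ y ∈ cube 2, e.f (lv 1 y) ∉ d '' Δ := fun y hy hx => by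
    obtain ⟨z, hz, ez⟩ := e2.ge hx
    have h1 := congrFun (e.injOn hz.1 (lv_cube o1 hy) ez) 2
    rw [show z 2 = 0 from hz.2] at h1
    exact zero_ne_one h1
  have nb : ∀ y ∈ dΔ, ∀ r ∈ Ioo (0 : ℝ) 1, b (y, r) ∉ d '' Δ := fun y hy r hr hx => by
    obtain ⟨y', hy', ey⟩ := hDT.le ⟨hx, _, ⟨hy, trivial⟩, rfl⟩
    rw [hd.bd y' hy'] at ey
    exact hr.1.ne (h.eq' hy' hy ey (by rw [abs_lt]; constructor <;> linarith [hr.1, hr.2])).2
  have mφ : ∀ y ∈ sph 2, dE.g (e.f (lv 0 y)) ∈ dΔ ∧ e.f (lv 0 y) = b (dE.g (e.f (lv 0 y)), 0) := by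
    intro y hy
    obtain ⟨z, hz, ez⟩ := hDT.le ⟨m0 y (sph_subset_cube hy), mT 0 z1 y hy⟩
    have : dE.g (d z) = z := dE.li z (hΔ hz)
    rw [← ez, this]; exact ⟨hz, hd.bd z hz⟩
  obtain ⟨φ, hφ⟩ := exists_equiv_of_bijOn (t := dΔ) (finConv_sphere 2) isClosed_sphere
    (f := fun y => dE.g (e.f (lv 0 y)))
    (dE.pg.comp (e.pf.comp (pl_lv 0 _) fun y hy => lv_cube z1 (sph_subset_cube hy))
      fun y hy => m0 y (sph_subset_cube hy))
    ⟨fun y hy => (mφ y hy).1, fun y hy y' hy' ey => lv_inj (e.injOn (lv_cube z1 (sph_subset_cube hy))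
      (lv_cube z1 (sph_subset_cube hy')) (dE.symm.injOn (m0 y (sph_subset_cube hy))
        (m0 y' (sph_subset_cube hy')) ey)), fun z hz => by
      obtain ⟨h1, h2⟩ := hDT.ge ⟨z, hz, rfl⟩
      obtain ⟨w, hw, ew⟩ := e2.ge h1
      obtain ⟨w', hw', ew'⟩ := e3.le ⟨ew ▸ e.mf hw.1, h2⟩
      obtain rfl := e.injOn hw'.1 hw.1 (ew'.trans ew.symm)
      have h3 : lv 0 (pr w') = w' := by
        funext i; fin_cases i
        exacts [rfl, rfl, (show w' 2 = 0 from hw.2).symm]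
      refine ⟨pr w', ?_, by simp only [h3, ew]; exact dE.li z (hΔ hz)⟩
      have h4 := mem_closedBall_zero_iff.1 hw.1
      have h5 : |w' 0| ≤ 1 := (norm_le_pi_norm w' 0).trans h4
      have h6 : |w' 1| ≤ 1 := (norm_le_pi_norm w' 1).trans h4
      rw [mem_sphere_zero_iff_norm, norm_P]
      show max |w' 0| |w' 1| = 1
      rcases hw'.2 with h7 | h7
      · rw [h7]; exact max_eq_left h6
      · rw [h7]; exact max_eq_right h5⟩
  -- the homotopy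
  have mI : ∀ y ∈ sph 2, e.f (lv 1 y) ∈ b '' (dΔ ×ˢ Ioo 0 1) := fun y hy => by
    obtain ⟨⟨z, r⟩, hp, ep⟩ := mT 1 o1 y hy
    refine ⟨(z, Int.fract r), ⟨hp.1, (Int.fract_nonneg r).lt_of_ne fun h0 => ?_, Int.fract_lt_one r⟩,
      (h.fract hp.1 r).trans ep⟩
    refine n1 y (sph_subset_cube hy) ⟨z, hΔ hp.1, ?_⟩
    rw [hd.bd z hp.1, ← ep, ← h.fract hp.1 r]
    exact congrArg (fun t => b (z, t)) h0
  have c1 : ∀ x ∈ b '' (dΔ ×ˢ univ), (crd dΔ b x).1 ∈ dΔ := by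
    rintro _ ⟨⟨z, r⟩, hp, rfl⟩; rw [h.crd_eq hp.1]; exact hp.1
  have c2 : ∀ x ∈ b '' (dΔ ×ˢ Ioo 0 1), (crd dΔ b x).2 ∈ Ioo (0 : ℝ) 1 ∧ b (crd dΔ b x) = x := by
    rintro _ ⟨⟨z, r⟩, hp, rfl⟩
    rw [h.crd_eq hp.1, Int.fract_eq_self.2 ⟨hp.2.1.le, hp.2.2⟩]; exact ⟨hp.2, rfl⟩
  set Y : P → P := fun z => (max ‖z‖ (1 / 2))⁻¹ • z with hY
  have Yc : Continuous Y := ((continuous_norm.max continuous_const).inv₀ fun z =>
    (lt_max_of_lt_right (by norm_num)).ne').smul continuous_id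
  have Y1 : ∀ z, Y z ∈ cube 2 := fun z => by
    have : 0 < max ‖z‖ (1 / 2) := lt_max_of_lt_right (by norm_num)
    rw [mem_closedBall_zero_iff, norm_smul, norm_inv, Real.norm_of_nonneg this.le, inv_mul_le_iff₀ this,
      mul_one]
    exact le_max_left _ _
  have Y2 : ∀ z : P, 1 / 2 ≤ ‖z‖ → Y z ∈ sph 2 := fun z hz => by
    rw [mem_sphere_zero_iff_norm, norm_smul, max_eq_left hz, norm_inv, norm_norm,
      inv_mul_cancel₀ (by linarith)]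
  have lc : ∀ {c : P → ℝ}, Continuous c → Continuous fun z => lv (c z) (Y z) := fun {c} hc =>
    continuous_pi fun i => by
      fin_cases i
      exacts [(continuous_apply (0 : Fin 2)).comp Yc, (continuous_apply (1 : Fin 2)).comp Yc, hc]
  set F : P → P × ℝ := fun z => ((crd dΔ b (e.f (lv (2 - 2 * ‖z‖) (Y z)))).1,
    (2 - 2 * ‖z‖) * (crd dΔ b (e.f (lv 1 (Y z)))).2 + (2 * ‖z‖ - 1) / 2) with hF
  set A : Set P := {z | 1 / 2 ≤ ‖z‖ ∧ ‖z‖ ≤ 1} with hA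
  have a1 : ∀ z ∈ A, |2 - 2 * ‖z‖| ≤ 1 := fun z hz => by
    rw [abs_le]; constructor <;> linarith [hz.1, hz.2]
  have F1 : ∀ z ∈ A, (F z).1 ∈ dΔ ∧ (F z).2 ∈ Ioo (0 : ℝ) 1 := fun z hz => by
    refine ⟨c1 _ (mT _ (a1 z hz) _ (Y2 z hz.1)), ?_⟩
    obtain ⟨⟨h1, h2⟩, -⟩ := c2 _ (mI _ (Y2 z hz.1))
    have h3 := hz.1
    have h4 := hz.2
    simp only [hF]
    constructor <;> nlinarith
  have g1 : ContinuousOn (fun z => e.f (lv 1 (Y z))) univ :=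
    e.pf.1.comp (lc continuous_const).continuousOn fun z _ => lv_cube o1 (Y1 z)
  have Fc : ContinuousOn F A := by
    refine ContinuousOn.prodMk (h.crd_cont1.comp (e.pf.1.comp (lc (by fun_prop)).continuousOn
      fun z hz => lv_cube (a1 z hz) (Y1 z)) fun z hz => mT _ (a1 z hz) _ (Y2 z hz.1)) ?_
    exact (ContinuousOn.mul (by fun_prop) (h.crd_cont2.comp (g1.mono (subset_univ _))
      fun z hz => mI _ (Y2 z hz.1))).add (by fun_prop)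
  classical
  set f : P → V := fun z => if ‖z‖ ≤ 1 / 2 then e.f (lv 1 (Y z)) else b (F z) with hf
  have f2 : ∀ z ∈ A, f z = b (F z) := fun z hz => by
    simp only [hf]
    split_ifs with h1
    · have h2 : ‖z‖ = 1 / 2 := le_antisymm h1 hz.1
      rw [← (c2 _ (mI _ (Y2 z hz.1))).2]
      simp only [hF, h2]
      norm_num
    · rfl
  refine ⟨φ, f, ?_, fun z hz => ?_, fun y hy => ?_⟩
  · have hc : cube 2 ⊆ closedBall 0 (1 / 2) ∪ A := fun z hz =>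
      (le_total ‖z‖ (1 / 2)).imp mem_closedBall_zero_iff.2 fun h1 => ⟨h1, mem_closedBall_zero_iff.1 hz⟩
    refine ContinuousOn.mono (ContinuousOn.union_of_isClosed ?_ ?_ isClosed_closedBall ?_) hc
    · exact (g1.mono (subset_univ _)).congr fun z hz => if_pos (mem_closedBall_zero_iff.1 hz)
    · exact (h.cont.comp Fc fun z hz => ⟨(F1 z hz).1, trivial⟩).congr f2
    · exact (isClosed_le continuous_const continuous_norm).inter (isClosed_le continuous_norm continuous_const)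
  · by_cases h1 : ‖z‖ ≤ 1 / 2
    · rw [show f z = _ from if_pos h1]
      exact ⟨(e1 (e.mf (lv_cube o1 (Y1 z)))).1, n1 _ (Y1 z)⟩
    · have h2 : z ∈ A := ⟨(not_le.1 h1).le, mem_closedBall_zero_iff.1 hz⟩
      rw [f2 z h2]
      exact ⟨hM.1 ⟨_, ⟨(F1 z h2).1, trivial⟩, rfl⟩, nb _ (F1 z h2).1 _ (F1 z h2).2⟩
  · have h1 : ‖y‖ = 1 := mem_sphere_zero_iff_norm.1 hy
    have h2 : Y y = y := by simp only [hY, h1]; norm_num
    rw [f2 y ⟨by linarith, h1.le⟩, hφ]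
    simp only [hF, h1, h2]
    norm_num
    rw [(mφ y hy).2, h.crd_eq (mφ y hy).1, ← (mφ y hy).2]

end Crest.Agent.X212.Sol49
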